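import Vale.Agent.P305GH.Ops

/-!
# The graph of all copies: contraction, junk, and what the box tells
-/

set_option linter.all false

namespace Vale.Agent.P305GH

open Vale.Agent.P305LC Finset

namespace Hs

variable {H : Hs} {Q F γ R : ℕ}

/-- A sum over the names in the nodes `T`. -/
theorem sum_nodes (H : Hs) (X T : Finset ℕ) (f : ℕ → ℤ) :
    ∑ v ∈ X ∩ H.O.filter (fun a => H.nd a ∈ T), f v = ∑ p ∈ T, ∑ v ∈ X ∩ H.C p, f v := by
  rw [← sum_fiberwise_of_maps_to (s := X ∩ H.O.filter fun a => H.nd a ∈ T) (t := T) (g := H.nd)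
    fun v hv => (mem_filter.1 (mem_inter.1 hv).2).2]
  refine sum_congr rfl fun p hp => sum_congr ?_ fun _ _ => rfl
  ext v
  simp only [mem_filter, mem_inter, mem_C]
  constructor
  · rintro ⟨⟨a, b, _⟩, d⟩; exact ⟨a, b, d⟩
  · rintro ⟨a, b, d⟩; exact ⟨⟨a, b, d ▸ hp⟩, d⟩

theorem OK.sum_T (h : H.OK Q F γ R) {T : Finset ℕ} (hT : T ⊆ H.P) :
    ∑ v ∈ H.O.filter (fun a => H.nd a ∈ T), H.w v = T.card := by
  have := H.sum_nodes H.O T H.w
  rw [inter_eq_right.2 (filter_subset _ _)] at this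
  rw [this, sum_congr rfl fun p hp => (show ∑ v ∈ H.O ∩ H.C p, H.w v = 1 by
    rw [inter_eq_right.2 (show H.C p ⊆ H.O from filter_subset _ _), h.wC p (hT hp)])]
  simp

theorem OK.sum_Y (h : H.OK Q F γ R) {Y : Finset ℕ} (hY : Y ⊆ H.I) :
    ∑ v ∈ Y, H.w v = -(Y.card : ℤ) := by
  rw [sum_congr rfl fun v hv => h.wI v (hY hv)]; simp

/-- A closed set weighs at least the number of nodes it touches. -/
theorem OK.touch (h : H.OK Q F γ R) {X : Finset ℕ} (hX : Cls H.G F X) (T T' : Finset ℕ)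
    (hT : T' ⊆ T) (ht : ∀ p ∈ T', (X ∩ H.C p).Nonempty) :
    (T'.card : ℤ) ≤ ∑ v ∈ X ∩ H.O.filter (fun a => H.nd a ∈ T), H.w v := by
  rw [sum_nodes]
  calc (T'.card : ℤ) = ∑ p ∈ T', (1 : ℤ) := by simp
    _ ≤ ∑ p ∈ T', ∑ v ∈ X ∩ H.C p, H.w v := sum_le_sum fun p hp => h.pos X p hX (ht p hp)
    _ ≤ _ := sum_le_sum_of_subset_of_nonneg hT fun p _ _ => by
      rcases (X ∩ H.C p).eq_empty_or_nonempty with e | e
      · rw [e, sum_empty]
      · exact zero_le_one.trans (h.pos X p hX e)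

theorem C_contract {T Y : Finset ℕ} {b : ℕ} (hY : Disjoint Y H.O) (hb : b ∈ H.P → b ∈ T) (q : ℕ) :
    (H.contract T Y b).C q =
      if q = b then Y ∪ H.O.filter fun a => H.nd a ∈ T else if q ∈ T then ∅ else H.C q := by
  ext v
  show v ∈ (H.O ∪ Y).filter (fun a => (if a ∈ Y ∨ H.nd a ∈ T then b else H.nd a) = q) ↔ _
  rw [mem_filter, mem_union]
  have h1 : v ∈ Y → v ∉ H.O := fun hv => disjoint_left.1 hY hv
  have h2 : v ∈ H.O → H.nd v = b → H.nd v ∈ T := fun hv e => e ▸ hb (e ▸ nd_mem hv)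
  by_cases hq : q = b
  · subst hq
    rw [if_pos rfl, mem_union, mem_filter]
    split_ifs with hc <;> tauto
  · rw [if_neg hq]
    by_cases hqT : q ∈ T
    · rw [if_pos hqT]
      split_ifs with hc
      · simp [Ne.symm hq]
      · simp only [notMem_empty, iff_false, not_and]
        intro _ e
        exact hc (.inr (e ▸ hqT))
    · rw [if_neg hqT, mem_C]
      split_ifs with hc
      · constructor
        · exact fun hh => absurd hh.2.symm hq
        · rintro ⟨a, e⟩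
          rcases hc with hc | hc
          · exact absurd a (h1 hc)
          · exact absurd (e ▸ hc) hqT
      · tauto

theorem P_contract {T Y : Finset ℕ} {b : ℕ} (hY : Disjoint Y H.O) (hT : T ⊆ H.P)
    (hne : T.Nonempty) : (H.contract T Y b).P = insert b (H.P \ T) := by
  ext q
  simp only [mem_P, mem_insert, mem_sdiff]
  constructor
  · rintro ⟨a, ha, e⟩
    have e' : (if a ∈ Y ∨ H.nd a ∈ T then b else H.nd a) = q := e
    split_ifs at e' with hc
    · exact .inl e'.symm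
    · rw [not_or] at hc
      exact .inr ⟨⟨a, (mem_union.1 ha).resolve_right hc.1, e'⟩, e' ▸ hc.2⟩
  · rintro (rfl | ⟨⟨a, ha, e⟩, hq⟩)
    · obtain ⟨p, hp⟩ := hne
      obtain ⟨a, ha, e⟩ := mem_P.1 (hT hp)
      exact ⟨a, mem_union_left _ ha, if_pos (.inr (e ▸ hp))⟩
    · refine ⟨a, mem_union_left _ ha, (if_neg ?_).trans e⟩
      rintro (hc | hc)
      · exact disjoint_left.1 hY hc ha
      · exact hq (e ▸ hc)

theorem OK.contract (h : H.OK Q F γ R) {T Y : Finset ℕ} {b : ℕ} (hT : T ⊆ H.P) (hY : Y ⊆ H.I)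
    (hc : T.card = Y.card + 1) (hb : b ∈ H.P → b ∈ T) (hs : H.Shut F T Y) (hu : H.Surp F Y) :
    (H.contract T Y b).OK Q F γ R := by
  have hYO : Disjoint Y H.O := h.dIO.mono_left hY
  have hd : Disjoint Y (H.O.filter fun a => H.nd a ∈ T) := hYO.mono_right (filter_subset _ _)
  refine ⟨h.QF, ?_, h.dJI.mono_right sdiff_subset, ?_, ?_, h.ends, h.out, h.wr, h.sl, h.scn, h.fuel,
    h.jc, ?_, ?_, fun y hy => h.wI y (mem_sdiff.1 hy).1, ?_, ?_, h.cre, h.inj, h.frs, h.fro, h.fru,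
    h.cnt, h.fu, h.tot⟩
  · show H.G.V = H.J ∪ (H.I \ Y) ∪ (H.O ∪ Y)
    rw [h.V, union_comm H.O Y, ← union_assoc, union_assoc H.J (H.I \ Y), sdiff_union_of_subset hY]
  · exact disjoint_union_right.2 ⟨h.dJO, h.dJI.mono_right hY⟩
  · exact disjoint_union_right.2 ⟨h.dIO.mono_left sdiff_subset, sdiff_disjoint⟩
  · intro e he hF hm
    show e.1 ∈ H.J ∨ (e.1 ∈ H.O ∪ Y ∧ (if e.1 ∈ Y ∨ H.nd e.1 ∈ T then b else H.nd e.1) =
      if e.2.1 ∈ Y ∨ H.nd e.2.1 ∈ T then b else H.nd e.2.1)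
    rcases mem_union.1 hm with hm | hm
    · rcases h.oc e he hF hm with h1 | h1
      · exact .inl h1
      · refine .inr ⟨mem_union_left _ h1.1, ?_⟩
        simp only [disjoint_right.1 hYO h1.1, disjoint_right.1 hYO hm, false_or, h1.2]
    · rcases (h.memV _).1 (h.ends e he).1 with h1 | h1 | h1
      · exact .inl h1
      · exact absurd h1 (h.ic e he hF (hY hm))
      · refine .inr ⟨mem_union_left _ h1, ?_⟩
        rw [if_pos (.inr (hs _ h1 _ hm (by rw [← hF]; exact he))), if_pos (.inl hm)]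
  · exact fun e he hF hm hc => h.ic e he hF (mem_sdiff.1 hm).1 (mem_sdiff.1 hc).1
  · intro q hq
    rw [P_contract hYO hT (card_pos.1 (by omega))] at hq
    rw [C_contract hYO hb]
    split_ifs with h1 h2
    · show ∑ v ∈ Y ∪ H.O.filter (fun a => H.nd a ∈ T), H.w v = 1
      rw [sum_union hd, h.sum_T hT, h.sum_Y hY, hc]; push_cast; ring
    · exact absurd h2 (mem_sdiff.1 ((mem_insert.1 hq).resolve_left h1)).2
    · exact h.wC q (mem_sdiff.1 ((mem_insert.1 hq).resolve_left h1)).1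
  · intro X q hX hne
    rw [C_contract hYO hb] at hne ⊢
    split_ifs at hne ⊢ with h1 h2
    · show 1 ≤ ∑ v ∈ X ∩ (Y ∪ H.O.filter fun a => H.nd a ∈ T), H.w v
      rw [inter_union_distrib_left,
        sum_union (hd.mono inter_subset_right inter_subset_right),
        h.sum_Y (inter_subset_right.trans hY)]
      rcases (X ∩ Y).eq_empty_or_nonempty with e | e
      · obtain ⟨v, hv⟩ := hne
        have hv1 := mem_inter.1 hv
        have hv2 : v ∈ H.O.filter fun a => H.nd a ∈ T := (mem_union.1 hv1.2).resolve_left fun hc =>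
          notMem_empty v (e ▸ mem_inter.2 ⟨hv1.1, hc⟩)
        have := h.touch hX T {H.nd v} (singleton_subset_iff.2 (mem_filter.1 hv2).2) fun p hp =>
          ⟨v, mem_inter.2 ⟨hv1.1, mem_C.2 ⟨(mem_filter.1 hv2).1, (mem_singleton.1 hp).symm⟩⟩⟩
        rw [e]; simpa using this
      · obtain ⟨T', h3, h4⟩ := hu _ inter_subset_right e
        have := h.touch hX T T' (fun p hp => by
          obtain ⟨s, h5, rfl, y, h6, h7⟩ := h4 p hp
          exact hs s h5 y (mem_inter.1 h6).2 h7) fun p hp => by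
          obtain ⟨s, h5, h8, y, h6, h7⟩ := h4 p hp
          exact ⟨s, mem_inter.2 ⟨hX _ h7 rfl (mem_inter.1 h6).1, mem_C.2 ⟨h5, h8⟩⟩⟩
        have h5 : ((X ∩ Y).card : ℤ) + 1 ≤ T'.card := by exact_mod_cast h3
        linarith
    · simp at hne
    · exact h.pos X q hX hne

theorem C_junk (T Y : Finset ℕ) (q : ℕ) : (H.junk T Y).C q = if q ∈ T then ∅ else H.C q := by
  ext v
  show v ∈ (H.O.filter fun a => H.nd a ∉ T).filter (fun a => H.nd a = q) ↔ _
  rw [mem_filter, mem_filter]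
  split_ifs with hq
  · simp only [notMem_empty, iff_false, not_and]
    exact fun a e => a.2 (e ▸ hq)
  · rw [mem_C]
    exact ⟨fun a => ⟨a.1.1, a.2⟩, fun a => ⟨⟨a.1, a.2 ▸ hq⟩, a.2⟩⟩

theorem P_junk (T Y : Finset ℕ) : (H.junk T Y).P = H.P \ T := by
  ext q
  simp only [mem_P, mem_sdiff]
  constructor
  · rintro ⟨a, ha, e⟩
    have := mem_filter.1 ha
    exact ⟨⟨a, this.1, e⟩, e ▸ this.2⟩
  · rintro ⟨⟨a, ha, e⟩, hq⟩
    exact ⟨a, mem_filter.2 ⟨ha, e ▸ hq⟩, e⟩

theorem OK.junk (h : H.OK Q F γ R) {T Y : Finset ℕ} (hY : Y ⊆ H.I) (hs : H.Shut F T Y) :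
    (H.junk T Y).OK Q F γ R := by
  refine ⟨h.QF, ?_, ?_, ?_, (h.dIO.mono_left sdiff_subset).mono_right (filter_subset _ _), h.ends,
    h.out, h.wr, h.sl, h.scn, h.fuel, ?_, ?_, ?_, fun y hy => h.wI y (mem_sdiff.1 hy).1, ?_, ?_,
    h.cre, h.inj, h.frs, h.fro, h.fru, h.cnt, h.fu, h.tot⟩
  · show H.G.V = (H.J ∪ Y ∪ H.O.filter fun a => H.nd a ∈ T) ∪ (H.I \ Y) ∪
      H.O.filter fun a => H.nd a ∉ T
    rw [h.V]
    ext v
    have := @hY v
    simp only [mem_union, mem_filter, mem_sdiff]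
    tauto
  · refine disjoint_union_left.2 ⟨disjoint_union_left.2 ⟨h.dJI.mono_right sdiff_subset,
      disjoint_sdiff⟩, ?_⟩
    exact ((h.dIO.mono_left sdiff_subset).mono_right (filter_subset _ _)).symm
  · refine disjoint_union_left.2 ⟨disjoint_union_left.2 ⟨h.dJO.mono_right (filter_subset _ _),
      (h.dIO.mono_left hY).mono_right (filter_subset _ _)⟩, disjoint_filter_filter_not _ _ _⟩
  · intro e he hF hm
    rcases mem_union.1 hm with hm | hm
    · rcases mem_union.1 hm with hm | hm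
      · exact mem_union_left _ (mem_union_left _ (h.jc e he hF hm))
      · rcases (h.memV _).1 (h.ends e he).1 with h1 | h1 | h1
        · exact mem_union_left _ (mem_union_left _ h1)
        · exact absurd h1 (h.ic e he hF (hY hm))
        · exact mem_union_right _ (mem_filter.2 ⟨h1, hs _ h1 _ hm (by rw [← hF]; exact he)⟩)
    · rcases h.oc e he hF (mem_filter.1 hm).1 with h1 | h1
      · exact mem_union_left _ (mem_union_left _ h1)
      · exact mem_union_right _ (mem_filter.2 ⟨h1.1, h1.2 ▸ (mem_filter.1 hm).2⟩)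
  · intro e he hF hm
    rcases h.oc e he hF (mem_filter.1 hm).1 with h1 | h1
    · exact .inl (mem_union_left _ (mem_union_left _ h1))
    · exact .inr ⟨mem_filter.2 ⟨h1.1, fun hc => (mem_filter.1 hm).2 (h1.2 ▸ hc)⟩, h1.2⟩
  · exact fun e he hF hm hc => h.ic e he hF (mem_sdiff.1 hm).1 (mem_sdiff.1 hc).1
  · intro q hq
    rw [P_junk] at hq
    rw [C_junk, if_neg (mem_sdiff.1 hq).2]
    exact h.wC q (mem_sdiff.1 hq).1
  · intro X q hX hne
    rw [C_junk] at hne ⊢
    split_ifs at hne ⊢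
    · simp at hne
    · exact h.pos X q hX hne

theorem OK.wJ_junk (h : H.OK Q F γ R) {T Y : Finset ℕ} (hT : T ⊆ H.P) (hY : Y ⊆ H.I) :
    (H.junk T Y).wJ = H.wJ + T.card - Y.card := by
  show ∑ v ∈ H.J ∪ Y ∪ H.O.filter (fun a => H.nd a ∈ T), H.w v = _
  rw [sum_union (disjoint_union_left.2 ⟨h.dJO.mono_right (filter_subset _ _),
    (h.dIO.mono_left hY).mono_right (filter_subset _ _)⟩), sum_union (h.dJI.mono_right hY),
    h.sum_T hT, h.sum_Y hY, wJ]
  ring

/-- Only the values of `nd` on live outer names matter. -/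
theorem OK.congr (h : H.OK Q F γ R) {nd : ℕ → ℕ} (hn : ∀ a ∈ H.O, nd a = H.nd a) :
    ({ H with nd := nd } : Hs).OK Q F γ R := by
  have hC : ∀ p, ({ H with nd := nd } : Hs).C p = H.C p := fun p =>
    filter_congr fun a ha => by show nd a = p ↔ _; rw [hn a ha]
  have hP : ({ H with nd := nd } : Hs).P = H.P := image_congr fun a ha => hn a ha
  refine ⟨h.QF, h.V, h.dJI, h.dJO, h.dIO, h.ends, h.out, h.wr, h.sl, h.scn, h.fuel, h.jc, ?_, h.ic,
    h.wI, ?_, ?_, h.cre, h.inj, h.frs, h.fro, h.fru, h.cnt, h.fu, h.tot⟩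
  · intro e he hF hm
    rcases h.oc e he hF hm with h1 | h1
    · exact .inl h1
    · exact .inr ⟨h1.1, (hn _ h1.1).trans (h1.2.trans (hn _ hm).symm)⟩
  · intro p hp
    rw [hC]; rw [hP] at hp; exact h.wC p hp
  · intro X p hX hne
    rw [hC] at hne ⊢; exact h.pos X p hX hne

/-! ### What the invariant gives -/

/-- The balance: roots = junk weight + nodes - inner names. -/
theorem OK.balance (h : H.OK Q F γ R) : (R : ℤ) = H.wJ + H.P.card - H.I.card := by
  have h1 := h.sum_T (T := H.P) Subset.rfl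
  rw [filter_true_of_mem fun a ha => nd_mem ha] at h1
  rw [← h.tot, h.V, sum_union (disjoint_union_left.2 ⟨h.dJO, h.dIO⟩), sum_union h.dJI, h1,
    h.sum_Y Subset.rfl, wJ]
  ring

theorem OK.w_nonneg (h : H.OK Q F γ R) (hQ : 0 < Q) {X : Finset ℕ} (hX : Cls H.G F X) :
    0 ≤ ∑ v ∈ X, H.w v := by
  have h1 := h.fuel X hX
  have h2 : (0 : ℤ) ≤ Q * ∑ v ∈ X, H.w v := h1 ▸ Int.natCast_nonneg _
  exact nonneg_of_mul_nonneg_right h2 (by exact_mod_cast hQ)

theorem OK.wJ_nonneg (h : H.OK Q F γ R) (hQ : 0 < Q) : 0 ≤ H.wJ := h.w_nonneg hQ h.jc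

/-- Junk copies that were born inner are paid by the weight of the junk. -/
theorem OK.inner_junk (h : H.OK Q F γ R) :
    ((H.J.filter fun v => H.w v = -1).card : ℤ) ≤ γ * Q * H.wJ := by
  have h1 : (H.J.filter fun v => H.w v = -1).card ≤ (H.G.scn ∩ H.J).card :=
    card_le_card_of_injOn H.cs (fun y hy => by
      have := mem_filter.1 hy
      exact mem_coe.2 (mem_inter.2 ⟨(h.cre y this.2).2, h.jc _ (h.cre y this.2).1 rfl this.1⟩))
      fun y hy z hz e => h.inj y z (mem_filter.1 hy).2 (mem_filter.1 hz).2 e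
  have h2 := h.fu H.J
  have h3 := h.fuel H.J h.jc
  rw [one_mul] at h2
  have h4 : ((H.J.filter fun v => H.w v = -1).card : ℤ) ≤ γ * (H.G.fuel H.J : ℤ) := by
    exact_mod_cast h1.trans h2
  rw [h3, ← mul_assoc] at h4
  exact h4

/-- All junk copies are paid by the weight of the junk. -/
theorem OK.copies_junk (h : H.OK Q F γ R) :
    ((H.J.filter fun v => H.w v ≠ 0).card : ℤ) ≤ (2 * γ * Q + 1) * H.wJ := by
  have h1 : ((H.J.filter fun v => H.w v ≠ 0).card : ℤ) =
      H.wJ + 2 * ((H.J.filter fun v => H.w v = -1).card : ℤ) := by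
    rw [card_filter, card_filter, wJ]
    push_cast
    rw [mul_sum, ← sum_add_distrib]
    refine sum_congr rfl fun v _ => ?_
    rcases h.wr v with e | e | e <;> simp [e]
  have := h.inner_junk
  rw [h1]
  linarith

theorem OK.size_le (h : H.OK Q F γ R) : H.G.size ≤ 4 * H.G.V.card ∧
    H.G.slot.card + H.G.V.card + H.G.arcs.length ≤ 4 * H.G.V.card := by
  have h1 : H.G.slot.card ≤ H.G.V.card := card_le_card fun v hv => h.slotV hv
  have h2 := card_le_card h.scn
  have h3 := h.cnt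
  unfold OG.size
  omega

/-- The stall: few nodes `T` in excess of the inner names `Y` that only `T` sees contain all slots
that are not scanned. -/
theorem OK.stall (h : H.OK Q F γ R) (hQ : 0 < Q) {γ' : ℕ} (hs : H.G.Stall γ' 1)
    (hF : γ' * (4 * H.G.V.card) < F) : ∃ T Y, T ⊆ H.P ∧ Y ⊆ H.I ∧ H.Shut F T Y ∧
      (∀ s ∈ H.O, s ∈ H.G.slot → s ∉ H.G.scn → H.nd s ∈ T) ∧
      Q * T.card ≤ Q * Y.card + γ' * (4 * H.G.V.card) := by
  obtain ⟨X, h1, h2⟩ := hs
  have h3 : H.G.fuel X ≤ γ' * (4 * H.G.V.card) := by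
    rw [mul_one] at h2
    exact h2.trans (Nat.mul_le_mul_left _ h.size_le.2)
  have hX : Cls H.G F X := cls_of_lt (h3.trans_lt hF)
  have hm : ∀ s ∈ H.O, s ∈ X → H.nd s ∈ H.P.filter fun p => (X ∩ H.C p).Nonempty := fun s a b =>
    mem_filter.2 ⟨nd_mem a, s, mem_inter.2 ⟨b, mem_C.2 ⟨a, rfl⟩⟩⟩
  refine ⟨H.P.filter fun p => (X ∩ H.C p).Nonempty, X ∩ H.I, filter_subset _ _, inter_subset_right,
    fun s a y b c => hm s a (hX _ c rfl (mem_inter.1 b).1),
    fun s a b c => hm s a (h1 (mem_sdiff.2 ⟨b, c⟩)), ?_⟩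
  have h4 := h.touch hX H.P _ (filter_subset (fun p => (X ∩ H.C p).Nonempty) _)
    fun p hp => (mem_filter.1 hp).2
  rw [filter_true_of_mem fun a ha => nd_mem ha] at h4
  have h5 := h.w_nonneg hQ (hX.inter h.jc)
  have h6 : ∑ v ∈ X, H.w v = ∑ v ∈ X ∩ H.J, H.w v + ∑ v ∈ X ∩ H.I, H.w v + ∑ v ∈ X ∩ H.O, H.w v := by
    rw [← sum_union (h.dJI.mono inter_subset_right inter_subset_right), ← inter_union_distrib_left,
      ← sum_union ((disjoint_union_left.2 ⟨h.dJO, h.dIO⟩).mono inter_subset_right inter_subset_right),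
      ← inter_union_distrib_left, ← h.V]
    refine (sum_subset inter_subset_left fun v a b => (h.out v fun c => b (mem_inter.2 ⟨a, c⟩)).1).symm
  have h7 := h.fuel X hX
  rw [h6, h.sum_Y inter_subset_right] at h7
  have h8 : (H.G.fuel X : ℤ) ≤ γ' * (4 * H.G.V.card) := by exact_mod_cast h3
  have h9 : (0 : ℤ) ≤ Q := Int.natCast_nonneg _
  have : (Q : ℤ) * (H.P.filter fun p => (X ∩ H.C p).Nonempty).card ≤
      Q * (X ∩ H.I).card + γ' * (4 * H.G.V.card) := by nlinarith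
  exact_mod_cast this

end Hs

end Vale.Agent.P305GH
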