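import Vale.Agent.P305LC.Defs

/-!
# The graph of all copies: ghost state and invariant

Names: copies born outer (`w = 1`), copies born inner (`w = -1`), slots (`w = 0`).
-/

set_option linter.all false

namespace Vale.Agent.P305GH

open Vale.Agent.P305LC Finset

/-- No arc of capacity `F` enters `X`. -/
def Cls (G : OG) (F : ℕ) (X : Finset ℕ) : Prop :=
  ∀ e ∈ G.arcs, e.2.2 = F → e.2.1 ∈ X → e.1 ∈ X

/-- The ghost state: the graph, weights, junk, live inner names, live outer names (with their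
slots), the node of an outer name, the creating slot of an inner name, slots without an arc. -/
structure Hs where
  G : OG
  w : ℕ → ℤ
  J : Finset ℕ
  I : Finset ℕ
  O : Finset ℕ
  nd : ℕ → ℕ
  cs : ℕ → ℕ
  fr : Finset ℕ

namespace Hs

variable (H : Hs)

/-- The live nodes. -/
def P : Finset ℕ := H.O.image H.nd

/-- The names in the node `p`. -/
def C (p : ℕ) : Finset ℕ := H.O.filter fun a => H.nd a = p

/-- The weight of the junk. -/
def wJ : ℤ := ∑ v ∈ H.J, H.w v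

/-- Nothing. -/
def empty : Hs := ⟨OG.empty, fun _ => 0, ∅, ∅, ∅, fun _ => 0, fun _ => 0, ∅⟩

/-- A new root `r`, the node `p`. -/
def root (Q r p : ℕ) : Hs :=
  { H with G := H.G.node r Q false, w := Function.update H.w r 1, O := insert r H.O,
           nd := Function.update H.nd r p }

/-- A new slot `s` hanging on the copy `a`. -/
def slot (F s a : ℕ) : Hs :=
  { H with G := (H.G.node s 0 true).arc (a, s, F), O := insert s H.O,
           nd := Function.update H.nd s (H.nd a), fr := insert s H.fr }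

/-- The slot `s` is scanned. -/
def scan (s : ℕ) : Hs := { H with G := H.G.scan s }

/-- The arc of the slot `s` to the inner name `y`. -/
def arc (F s y : ℕ) : Hs := { H with G := H.G.arc (s, y, F), fr := H.fr.erase s }

/-- A new pair: `y` inner, `m` outer (the node `p`), found through the slot `s`. -/
def pair (Q F s y m p : ℕ) : Hs :=
  { H with G := ((((H.G.node y 0 false).node m 0 false).arc (y, m, Q)).arc (m, y, F)).arc (s, y, F),
           w := Function.update (Function.update H.w y (-1)) m 1, I := insert y H.I,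
           O := insert m H.O, nd := Function.update H.nd m p, cs := Function.update H.cs y s,
           fr := H.fr.erase s }

/-- The nodes `T` and the inner names `Y` become the node `b`. -/
def contract (T Y : Finset ℕ) (b : ℕ) : Hs :=
  { H with I := H.I \ Y, O := H.O ∪ Y, nd := fun a => if a ∈ Y ∨ H.nd a ∈ T then b else H.nd a }

/-- The nodes `T` and the inner names `Y` become junk. -/
def junk (T Y : Finset ℕ) : Hs :=
  { H with J := H.J ∪ Y ∪ H.O.filter fun a => H.nd a ∈ T, I := H.I \ Y,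
           O := H.O.filter fun a => H.nd a ∉ T }

/-- All live arcs into `Y` come from `T`. -/
def Shut (F : ℕ) (T Y : Finset ℕ) : Prop :=
  ∀ s ∈ H.O, ∀ y ∈ Y, (s, y, F) ∈ H.G.arcs → H.nd s ∈ T

/-- Every nonempty part of `Y` has more neighbours than elements. -/
def Surp (F : ℕ) (Y : Finset ℕ) : Prop :=
  ∀ Y' ⊆ Y, Y'.Nonempty → ∃ T' : Finset ℕ, Y'.card + 1 ≤ T'.card ∧
    ∀ p ∈ T', ∃ s ∈ H.O, H.nd s = p ∧ ∃ y ∈ Y', (s, y, F) ∈ H.G.arcs

/-- The invariant. `Q`: supply, `F`: infinite capacity, `γ`: quality of the box, `R`: number of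
roots. -/
structure OK (Q F γ R : ℕ) : Prop where
  QF : Q < F
  V : H.G.V = H.J ∪ H.I ∪ H.O
  dJI : Disjoint H.J H.I
  dJO : Disjoint H.J H.O
  dIO : Disjoint H.I H.O
  ends : ∀ e ∈ H.G.arcs, e.1 ∈ H.G.V ∧ e.2.1 ∈ H.G.V
  out : ∀ v, v ∉ H.G.V → H.w v = 0 ∧ H.G.sup v = 0
  wr : ∀ v, H.w v = 1 ∨ H.w v = 0 ∨ H.w v = -1
  sl : ∀ v, v ∈ H.G.slot ↔ v ∈ H.G.V ∧ H.w v = 0
  scn : H.G.scn ⊆ H.G.slot
  fuel : ∀ X, Cls H.G F X → (H.G.fuel X : ℤ) = Q * ∑ v ∈ X, H.w v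
  jc : Cls H.G F H.J
  oc : ∀ e ∈ H.G.arcs, e.2.2 = F → e.2.1 ∈ H.O → e.1 ∈ H.J ∨ (e.1 ∈ H.O ∧ H.nd e.1 = H.nd e.2.1)
  ic : ∀ e ∈ H.G.arcs, e.2.2 = F → e.2.1 ∈ H.I → e.1 ∉ H.I
  wI : ∀ y ∈ H.I, H.w y = -1
  wC : ∀ p ∈ H.P, ∑ v ∈ H.C p, H.w v = 1
  pos : ∀ X p, Cls H.G F X → (X ∩ H.C p).Nonempty → 1 ≤ ∑ v ∈ X ∩ H.C p, H.w v
  cre : ∀ y, H.w y = -1 → (H.cs y, y, F) ∈ H.G.arcs ∧ H.cs y ∈ H.G.scn
  inj : ∀ y z, H.w y = -1 → H.w z = -1 → H.cs y = H.cs z → y = z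
  frs : H.fr ⊆ H.G.slot
  fro : ∀ s ∈ H.fr, ∀ e ∈ H.G.arcs, e.1 ≠ s
  fru : ∀ s ∈ H.G.slot, s ∉ H.G.scn → s ∈ H.fr
  cnt : H.G.arcs.length + H.fr.card ≤ 2 * H.G.V.card
  fu : H.G.Fuel γ 1
  tot : ∑ v ∈ H.G.V, H.w v = R

variable {H}

theorem mem_P {p : ℕ} : p ∈ H.P ↔ ∃ a ∈ H.O, H.nd a = p := mem_image

theorem mem_C {p a : ℕ} : a ∈ H.C p ↔ a ∈ H.O ∧ H.nd a = p := mem_filter

theorem nd_mem {a : ℕ} (h : a ∈ H.O) : H.nd a ∈ H.P := mem_image_of_mem _ h

end Hs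

/-! ### Small facts about `fuel` -/

theorem fuel_arc (G : OG) (e : Ac) (X : Finset ℕ) :
    (G.arc e).fuel X = G.fuel X + if e.1 ∉ X ∧ e.2.1 ∈ X then e.2.2 else 0 := by
  simp only [OG.fuel, OG.arc, capIn, List.map_cons, List.sum_cons]
  omega

theorem sum_upd {β : Type} [AddCommMonoid β] (f : ℕ → β) (v : ℕ) (a : β) (X : Finset ℕ)
    (h : f v = 0) : ∑ x ∈ X, Function.update f v a x = ∑ x ∈ X, f x + if v ∈ X then a else 0 := by
  split_ifs with hv
  · rw [sum_update_of_mem hv, ← add_sum_erase X f hv, h, zero_add, add_comm, sdiff_singleton_eq_erase]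
  · rw [sum_update_of_notMem hv, add_zero]

theorem fuel_node (G : OG) (v a : ℕ) (sl : Bool) (X : Finset ℕ) (h : G.sup v = 0) :
    (G.node v a sl).fuel X = G.fuel X + if v ∈ X then a else 0 := by
  simp only [OG.fuel, OG.node]
  rw [sum_upd _ _ _ _ h]
  omega

theorem Fuel_arc {G : OG} {γ ρ : ℕ} (h : G.Fuel γ ρ) (e : Ac) : (G.arc e).Fuel γ ρ := fun X =>
  (h X).trans (Nat.mul_le_mul_left _ (by rw [fuel_arc]; omega))

theorem Fuel_node {G : OG} {γ ρ : ℕ} (h : G.Fuel γ ρ) (v a : ℕ) (sl : Bool) (h0 : G.sup v = 0) :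
    (G.node v a sl).Fuel γ ρ := fun X =>
  (h X).trans (Nat.mul_le_mul_left _ (by rw [fuel_node _ _ _ _ _ h0]; omega))

theorem Cls.of_arc {G : OG} {F : ℕ} {X : Finset ℕ} {e : Ac} (h : Cls (G.arc e) F X) : Cls G F X :=
  fun e' he' => h e' (List.mem_cons_of_mem _ he')

theorem Cls.head {G : OG} {F u v : ℕ} {X : Finset ℕ} (h : Cls (G.arc (u, v, F)) F X) (hv : v ∈ X) :
    u ∈ X := h (u, v, F) List.mem_cons_self rfl hv

theorem Cls.inter {G : OG} {F : ℕ} {X Y : Finset ℕ} (h : Cls G F X) (h' : Cls G F Y) :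
    Cls G F (X ∩ Y) := fun e he hF hm =>
  mem_inter.2 ⟨h e he hF (mem_inter.1 hm).1, h' e he hF (mem_inter.1 hm).2⟩

theorem cls_of_lt {G : OG} {F : ℕ} {X : Finset ℕ} (h : G.fuel X < F) : Cls G F X := by
  intro e he hF hm
  by_contra hn
  have h1 : e.2.2 ≤ capIn G.arcs X := by
    have : (if e.1 ∉ X ∧ e.2.1 ∈ X then e.2.2 else 0) ≤ capIn G.arcs X :=
      List.single_le_sum (by simp) _ (List.mem_map.2 ⟨e, he, rfl⟩)
    rwa [if_pos ⟨hn, hm⟩] at this
  unfold OG.fuel at h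
  omega

end Vale.Agent.P305GH
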