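import Vale.Agent.P305GH.Main
import Vale.Agent.P305BG.Arcs
import Vale.Agent.P305BL.Hall

/-!
# The link between the graph of all copies and the view of the fractional matching
-/

set_option linter.all false

namespace Vale.Agent.P305GH

open Vale.Agent.P305LC Vale.Agent.P305N Vale.Agent.P305BL Vale.Agent.P305BG Finset

/-- The same live names and the same arcs. -/
structure Lk (F : ℕ) (H : Hs) (V : Vw) : Prop where
  I : H.I = V.I
  P : H.P = V.P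
  toG : ∀ k, V.tl k ≠ 0 → ∃ s ∈ H.O, H.nd s = V.tl k ∧ (s, k / 3, F) ∈ H.G.arcs
  toV : ∀ s ∈ H.O, ∀ y ∈ H.I, (s, y, F) ∈ H.G.arcs → ∃ k, k / 3 = y ∧ V.tl k = H.nd s

variable {H : Hs} {V : Vw} {Q F γ R b : ℕ}

theorem upd_self (f : ℕ → ℕ) (k a : ℕ) : Function.update f k a k = a := Function.update_self _ _ _

theorem lk_empty (F : ℕ) : Lk F Hs.empty Vw.empty :=
  ⟨rfl, rfl, fun _ h => absurd rfl h, fun _ h => absurd h (notMem_empty _)⟩

theorem Lk.nd_ne (l : Lk F H V) (ok : V.OK b) {s : ℕ} (hs : s ∈ H.O) : H.nd s ≠ 0 := fun e =>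
  ok.zP (l.P ▸ e ▸ Hs.nd_mem hs)

theorem Lk.shut (l : Lk F H V) (ok : V.OK b) {T Y : Finset ℕ} (c : V.Cls T Y) : H.Shut F T Y := by
  intro s hs y hy he
  obtain ⟨k, h1, h2⟩ := l.toV s hs y (l.I ▸ c.sI hy) he
  exact h2 ▸ c.cl k (h1 ▸ hy) (h2 ▸ l.nd_ne ok hs)

theorem Lk.cls (l : Lk F H V) {T Y : Finset ℕ} (hT : T ⊆ H.P) (hY : Y ⊆ H.I) (c : H.Shut F T Y) :
    V.Cls T Y := ⟨l.P ▸ hT, l.I ▸ hY, fun k h1 h2 => by
  obtain ⟨s, hs, h3, h4⟩ := l.toG k h2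
  exact h3 ▸ c s hs _ h1 h4⟩

theorem Lk.surp (l : Lk F H V) {Ys : List ℕ} {E : List Tr} (hE : ArcL V.tl Ys E) {Y : Finset ℕ}
    (hs : ∀ Y' ⊆ Y, Y'.Nonempty → Y'.card + 1 ≤ (Nb E Y').card) : H.Surp F Y := by
  intro Y' h1 h2
  refine ⟨Nb E Y', hs Y' h1 h2, fun p hp => ?_⟩
  obtain ⟨e, he, h3, rfl⟩ := mem_Nb.1 hp
  obtain ⟨_, h4, h5, h6⟩ := (hE.mem e).1 he
  obtain ⟨s, h7, h8, h9⟩ := l.toG e.2.1 (h5 ▸ h6)
  exact ⟨s, h7, h8.trans h5, e.2.2, h3, h4 ▸ h9⟩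

theorem Lk.mov (l : Lk F H V) (src rest don : List (ℕ × ℕ)) : Lk F H (V.mov src rest don) :=
  ⟨l.I, l.P, l.toG, l.toV⟩

theorem Lk.scan (l : Lk F H V) (s : ℕ) : Lk F (H.scan s) V := ⟨l.I, l.P, l.toG, l.toV⟩

theorem Lk.congr (l : Lk F H V) {nd : ℕ → ℕ} (hn : ∀ a ∈ H.O, nd a = H.nd a) :
    Lk F { H with nd := nd } V :=
  ⟨l.I, (image_congr fun a ha => hn a ha).trans l.P,
    fun k hk => let ⟨s, a, c, d⟩ := l.toG k hk; ⟨s, a, (hn s a).trans c, d⟩,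
    fun s a y c d => let ⟨k, e, f⟩ := l.toV s a y c d; ⟨k, e, f.trans (hn s a).symm⟩⟩

theorem Lk.root (l : Lk F H V) (h : H.OK Q F γ R) {r : ℕ} (hr : r ∉ H.G.V) :
    Lk F (H.root Q r r) (V.root r) := by
  have hO : r ∉ H.O := fun hc => hr (h.OV hc)
  refine ⟨l.I, (Hs.P_root r hO).trans (congrArg _ l.P), fun k hk => ?_, fun s hs y hy he => ?_⟩
  · obtain ⟨s, a, c, d⟩ := l.toG k hk
    exact ⟨s, mem_insert_of_mem a, (Hs.upd_mem hO _ _ s a).trans c, d⟩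
  · have hs' : s ∈ H.O := (mem_insert.1 hs).resolve_left fun e => hr (e ▸ (h.ends _ he).1)
    obtain ⟨k, e, f⟩ := l.toV s hs' y hy he
    exact ⟨k, e, f.trans (Hs.upd_mem hO _ _ s hs').symm⟩

theorem Lk.slot (l : Lk F H V) (h : H.OK Q F γ R) {s a : ℕ} (hs : s ∉ H.G.V) (ha : a ∈ H.O) :
    Lk F (H.slot F s a) V := by
  have hO : s ∉ H.O := fun hc => hs (h.OV hc)
  refine ⟨l.I, (Hs.P_slot hO ha).trans l.P, fun k hk => ?_, fun t ht y hy he => ?_⟩
  · obtain ⟨t, a', c, d⟩ := l.toG k hk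
    exact ⟨t, mem_insert_of_mem a', (Hs.upd_mem hO _ _ t a').trans c, List.mem_cons_of_mem _ d⟩
  · have he' : (t, y, F) ∈ H.G.arcs := (List.mem_cons.1 he).resolve_left fun e =>
      hs ((Prod.mk.inj (Prod.mk.inj e).2).1 ▸ h.IV hy)
    have ht' : t ∈ H.O := (mem_insert.1 ht).resolve_left fun e => hs (e ▸ (h.ends _ he').1)
    obtain ⟨k, e, f⟩ := l.toV t ht' y hy he'
    exact ⟨k, e, f.trans (Hs.upd_mem hO _ _ t ht').symm⟩

theorem Lk.arc (l : Lk F H V) (ok : V.OK b) {s k : ℕ} (hs : s ∈ H.O) (hk : V.tl k = 0) :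
    Lk F (H.arc F s (k / 3)) (V.add k (H.nd s)) := by
  refine ⟨l.I, l.P, fun j hj => ?_, fun t ht y hy he => ?_⟩
  · by_cases e : j = k
    · subst e
      exact ⟨s, hs, (Function.update_self j (H.nd s) V.tl).symm, List.mem_cons_self⟩
    · have e' : (V.add k (H.nd s)).tl j = V.tl j := Function.update_of_ne e _ _
      rw [e'] at hj ⊢
      obtain ⟨t, a', c, d⟩ := l.toG j hj
      exact ⟨t, a', c, List.mem_cons_of_mem _ d⟩
  · rcases List.mem_cons.1 he with e | he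
    · obtain ⟨rfl, e'⟩ := Prod.mk.inj e
      exact ⟨k, (Prod.mk.inj e').1.symm, upd_self V.tl k _⟩
    · obtain ⟨j, e, f⟩ := l.toV t ht y hy he
      have hj : j ≠ k := fun e' => l.nd_ne ok ht (f ▸ e' ▸ hk)
      exact ⟨j, e, (Function.update_of_ne hj _ _).trans f⟩

theorem Lk.pair (l : Lk F H V) (h : H.OK Q F γ R) (ok : V.OK b) {s k k' m : ℕ} (hs : s ∈ H.O)
    (hy : k / 3 ∉ H.G.V) (hm : m ∉ H.G.V) (hym : k / 3 ≠ m) (hk : k' / 3 = k / 3) (hkk : k ≠ k') :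
    Lk F (H.pair Q F s (k / 3) m m) ((V.pair k m).add k' (H.nd s)) := by
  have hO : m ∉ H.O := fun hc => hm (h.OV hc)
  have hnd : ∀ t ∈ H.O, (H.pair Q F s (k / 3) m m).nd t = H.nd t := Hs.upd_mem hO _ _
  have hnm : (H.pair Q F s (k / 3) m m).nd m = m := upd_self H.nd m m
  have t1 : ((V.pair k m).add k' (H.nd s)).tl k' = H.nd s := Function.update_self k' _ _
  have t2 : ((V.pair k m).add k' (H.nd s)).tl k = m :=
    (Function.update_of_ne hkk _ _).trans (upd_self V.tl k m)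
  have t3 : ∀ j, j / 3 ≠ k / 3 → ((V.pair k m).add k' (H.nd s)).tl j = V.tl j := fun j hj =>
    (Function.update_of_ne (show j ≠ k' from fun e => hj (e ▸ hk)) _ _).trans
      (Function.update_of_ne (show j ≠ k from fun e => hj (e ▸ rfl)) _ _)
  have harc : ∀ e, e ∈ (H.pair Q F s (k / 3) m m).G.arcs ↔
      e = (s, k / 3, F) ∨ e = (m, k / 3, F) ∨ e = (k / 3, m, Q) ∨ e ∈ H.G.arcs := fun e => by
    simp only [Hs.pair, OG.arc, OG.node, List.mem_cons]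
  refine ⟨congrArg (insert (k / 3)) l.I, (Hs.P_pair s _ m hO).trans (congrArg _ l.P), fun j hj => ?_,
    fun t ht y hy' he => ?_⟩
  · by_cases e : j = k'
    · subst e
      exact ⟨s, mem_insert_of_mem hs, (hnd s hs).trans t1.symm, (harc _).2 (.inl (by rw [hk]))⟩
    · by_cases e' : j = k
      · subst e'
        exact ⟨m, mem_insert_self _ _, hnm.trans t2.symm, (harc _).2 (.inr (.inl rfl))⟩
      · have e2 : ((V.pair k m).add k' (H.nd s)).tl j = V.tl j :=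
          (Function.update_of_ne e _ _).trans (Function.update_of_ne e' _ _)
        rw [e2] at hj ⊢
        obtain ⟨t, a', c, d⟩ := l.toG j hj
        exact ⟨t, mem_insert_of_mem a', (hnd t a').trans c, (harc _).2 (.inr (.inr (.inr d)))⟩
  · rcases (harc _).1 he with e | e | e | he
    · obtain ⟨rfl, e'⟩ := Prod.mk.inj e
      exact ⟨k', hk.trans (Prod.mk.inj e').1.symm, t1.trans (hnd t hs).symm⟩
    · obtain ⟨rfl, e'⟩ := Prod.mk.inj e
      exact ⟨k, (Prod.mk.inj e').1.symm, t2.trans hnm.symm⟩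
    · exact absurd (Prod.mk.inj (Prod.mk.inj e).2).2.symm h.QF.ne
    · have h1 := h.ends _ he
      have ht' : t ∈ H.O := (mem_insert.1 ht).resolve_left fun e => hm (e ▸ h1.1)
      have hne : y ≠ k / 3 := fun e => hy (e ▸ h1.2)
      obtain ⟨j, e, f⟩ := l.toV t ht' y ((mem_insert.1 hy').resolve_left hne) he
      exact ⟨j, e, (t3 j (e ▸ hne)).trans (f.trans (hnd t ht').symm)⟩

theorem Lk.contract (l : Lk F H V) (h : H.OK Q F γ R) (ok : V.OK b) {T Y : Finset ℕ} (r : ℕ)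
    (hT : T ⊆ H.P) (hY : Y ⊆ H.I) (hne : T.Nonempty) :
    Lk F (H.contract T Y r) (V.con T Y r) := by
  have hYO : Disjoint Y H.O := h.dIO.mono_left hY
  have hnd : ∀ s ∈ H.O, (H.contract T Y r).nd s = if H.nd s ∈ T then r else H.nd s := fun s hs => by
    show (if s ∈ Y ∨ H.nd s ∈ T then r else H.nd s) = _
    simp only [disjoint_right.1 hYO hs, false_or]
  refine ⟨congrArg (· \ Y) l.I, (Hs.P_contract hYO hT hne).trans (by rw [l.P]; rfl),
    fun k hk => ?_, fun s hs y hy he => ?_⟩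
  · have e : (V.con T Y r).tl k = if k / 3 ∈ Y then 0 else if V.tl k ∈ T then r else V.tl k := rfl
    rw [e] at hk ⊢
    have h1 : k / 3 ∉ Y := fun hc => hk (if_pos hc)
    rw [if_neg h1] at hk ⊢
    have h2 : V.tl k ≠ 0 := fun e0 => by
      have : (0 : ℕ) ∉ T := fun hc => ok.zP (l.P ▸ hT hc)
      rw [e0, if_neg this] at hk
      exact hk rfl
    obtain ⟨s, a, c, d⟩ := l.toG k h2
    exact ⟨s, mem_union_left _ a, by rw [hnd s a, c], d⟩
  · have hy' := mem_sdiff.1 hy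
    have hs' : s ∈ H.O := (mem_union.1 hs).resolve_right fun hc => h.ic _ he rfl hy'.1 (hY hc)
    obtain ⟨k, e, f⟩ := l.toV s hs' y hy'.1 he
    refine ⟨k, e, ?_⟩
    show (if k / 3 ∈ Y then 0 else if V.tl k ∈ T then r else V.tl k) = _
    rw [if_neg (e ▸ hy'.2), hnd s hs', f]

theorem Lk.junk (l : Lk F H V) (T Y : Finset ℕ) (L : List (ℕ × ℕ)) :
    Lk F (H.junk T Y) (V.del T Y L) := by
  refine ⟨congrArg (· \ Y) l.I, (Hs.P_junk T Y).trans (by rw [l.P]; rfl), fun k hk => ?_,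
    fun s hs y hy he => ?_⟩
  · have e : (V.del T Y L).tl k = if V.tl k ∈ T then 0 else V.tl k := rfl
    rw [e] at hk ⊢
    have h1 : V.tl k ∉ T := fun hc => hk (if_pos hc)
    rw [if_neg h1] at hk ⊢
    obtain ⟨s, a, c, d⟩ := l.toG k hk
    exact ⟨s, mem_filter.2 ⟨a, c ▸ h1⟩, c, d⟩
  · have hs' := mem_filter.1 hs
    obtain ⟨k, e, f⟩ := l.toV s hs'.1 y (mem_sdiff.1 hy).1 he
    refine ⟨k, e, ?_⟩
    show (if V.tl k ∈ T then 0 else V.tl k) = H.nd s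
    rw [f, if_neg hs'.2]

end Vale.Agent.P305GH
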