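import Vale.Agent.P305GH.Defs

/-!
# The graph of all copies: the operations that extend the graph keep the invariant
-/

set_option linter.all false

namespace Vale.Agent.P305GH

open Vale.Agent.P305LC Finset

namespace Hs

variable {H : Hs} {Q F γ R : ℕ}

theorem OK.memV (h : H.OK Q F γ R) (v : ℕ) : v ∈ H.G.V ↔ v ∈ H.J ∨ v ∈ H.I ∨ v ∈ H.O := by
  rw [h.V]; simp only [mem_union, or_assoc]

theorem OK.OV (h : H.OK Q F γ R) {v : ℕ} (hv : v ∈ H.O) : v ∈ H.G.V := (h.memV v).2 (.inr (.inr hv))

theorem OK.IV (h : H.OK Q F γ R) {v : ℕ} (hv : v ∈ H.I) : v ∈ H.G.V := (h.memV v).2 (.inr (.inl hv))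

theorem OK.JV (h : H.OK Q F γ R) {v : ℕ} (hv : v ∈ H.J) : v ∈ H.G.V := (h.memV v).2 (.inl hv)

theorem OK.wV (h : H.OK Q F γ R) {v : ℕ} (hv : H.w v ≠ 0) : v ∈ H.G.V := by
  by_contra hn; exact hv (h.out v hn).1

theorem OK.slotV (h : H.OK Q F γ R) {v : ℕ} (hv : v ∈ H.G.slot) : v ∈ H.G.V := ((h.sl v).1 hv).1

theorem ok_empty (hQ : Q < F) (γ : ℕ) : Hs.empty.OK Q F γ 0 := by
  refine ⟨hQ, ?_, ?_, ?_, ?_, ?_, ?_, ?_, ?_, ?_, ?_, ?_, ?_, ?_, ?_, ?_,
    fun X p _ ⟨a, ha⟩ => absurd (mem_C.1 (mem_inter.1 ha).2).1 (notMem_empty a), ?_, ?_, ?_, ?_, ?_,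
    ?_, ?_, ?_⟩ <;> simp [Hs.empty, OG.empty, Cls, OG.fuel, capIn, P, C, OG.Fuel]

theorem upd_mem {β : Type} {S : Finset ℕ} {m : ℕ} (hm : m ∉ S) (f : ℕ → β) (b : β) :
    ∀ v ∈ S, Function.update f m b v = f v := fun v hv =>
  Function.update_of_ne (show v ≠ m from fun e => hm (e ▸ hv)) _ _

theorem C_new {O : Finset ℕ} {nd : ℕ → ℕ} {m p : ℕ} (hm : m ∉ O) (hp : p ∉ O.image nd) (q : ℕ) :
    ((insert m O).filter fun a => Function.update nd m p a = q) =
      if q = p then {m} else O.filter fun a => nd a = q := by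
  ext a
  by_cases ha : a = m
  · subst ha
    by_cases hq : q = p
    · simp [hq]
    · simp [hq, hm, Ne.symm hq]
  · by_cases hq : q = p
    · subst hq
      simp only [mem_filter, mem_insert, ha, false_or, Function.update_of_ne ha, if_true,
        mem_singleton, iff_false, not_and]
      intro h1 h2
      exact hp (mem_image.2 ⟨a, h1, h2⟩)
    · simp [ha, hq]

theorem P_new {O : Finset ℕ} {nd : ℕ → ℕ} {m : ℕ} (p : ℕ) (hm : m ∉ O) :
    (insert m O).image (Function.update nd m p) = insert p (O.image nd) := by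
  rw [image_insert, Function.update_self]
  congr 1
  exact image_congr fun a ha => upd_mem hm _ _ a ha

theorem P_root {r : ℕ} (p : ℕ) (hr : r ∉ H.O) : (H.root Q r p).P = insert p H.P := P_new p hr

theorem P_pair {m : ℕ} (s y p : ℕ) (hm : m ∉ H.O) : (H.pair Q F s y m p).P = insert p H.P :=
  P_new p hm

theorem P_slot {s a : ℕ} (hs : s ∉ H.O) (ha : a ∈ H.O) : (H.slot F s a).P = H.P := by
  have := P_new (nd := H.nd) (H.nd a) hs
  rw [insert_eq_of_mem (mem_image_of_mem _ ha)] at this
  exact this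

/-- The part of the invariant about a new node. -/
theorem OK.newNode (h : H.OK Q F γ R) {m p : ℕ} (hm : m ∉ H.G.V) (hp : p ∉ H.P) {w' : ℕ → ℤ}
    (hw : ∀ v ∈ H.G.V, w' v = H.w v) (hm1 : w' m = 1) (X : Finset ℕ) (q : ℕ) :
    (q ∈ insert p H.P →
      ∑ v ∈ (insert m H.O).filter fun a => Function.update H.nd m p a = q, w' v = 1) ∧
    (Cls H.G F X → (X ∩ (insert m H.O).filter fun a => Function.update H.nd m p a = q).Nonempty →
      1 ≤ ∑ v ∈ X ∩ (insert m H.O).filter fun a => Function.update H.nd m p a = q, w' v) := by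
  rw [C_new (fun hc => hm (h.OV hc)) hp]
  by_cases hq : q = p
  · rw [if_pos hq]
    refine ⟨fun _ => by simp [hm1], fun _ hne => ?_⟩
    obtain ⟨a, ha⟩ := hne
    have h1 := mem_inter.1 ha
    have h2 : a = m := mem_singleton.1 h1.2
    rw [inter_singleton_of_mem (h2 ▸ h1.1), sum_singleton, hm1]
  · rw [if_neg hq]
    refine ⟨fun hq' => ?_, fun hc hne => ?_⟩
    · rw [← h.wC q ((mem_insert.1 hq').resolve_left hq)]
      exact sum_congr rfl fun v hv => hw v (h.OV (mem_filter.1 hv).1)
    · refine (h.pos X q hc hne).trans (le_of_eq (sum_congr rfl fun v hv => (hw v ?_).symm))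
      exact h.OV (mem_filter.1 (mem_inter.1 hv).2).1

theorem OK.root (h : H.OK Q F γ R) {r p : ℕ} (hr : r ∉ H.G.V) (hp : p ∉ H.P) :
    (H.root Q r p).OK Q F γ (R + 1) := by
  have hJ : r ∉ H.J := fun hc => hr (h.JV hc)
  have hI : r ∉ H.I := fun hc => hr (h.IV hc)
  have hO : r ∉ H.O := fun hc => hr (h.OV hc)
  have hw : ∀ v ∈ H.G.V, Function.update H.w r 1 v = H.w v := upd_mem hr _ _
  have hm : ∀ y, Function.update H.w r 1 y = -1 → H.w y = -1 := fun y hy => by
    by_cases e : y = r
    · subst e; simp at hy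
    · rwa [Function.update_of_ne e] at hy
  have hnd : ∀ v ∈ H.G.V, Function.update H.nd r p v = H.nd v := upd_mem hr _ _
  refine ⟨h.QF, ?_, h.dJI, ?_, ?_, ?_, ?_, ?_, ?_, h.scn, ?_, h.jc, ?_, h.ic, ?_, ?_, ?_, ?_, ?_,
    h.frs, h.fro, h.fru, ?_, Fuel_node h.fu _ _ _ (h.out r hr).2, ?_⟩
  · show insert r H.G.V = H.J ∪ H.I ∪ insert r H.O
    rw [h.V, union_insert]
  · exact disjoint_insert_right.2 ⟨hJ, h.dJO⟩
  · exact disjoint_insert_right.2 ⟨hI, h.dIO⟩
  · exact fun e he => ⟨mem_insert_of_mem (h.ends e he).1, mem_insert_of_mem (h.ends e he).2⟩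
  · intro v hv
    have hv' : v ∉ insert r H.G.V := hv
    rw [mem_insert, not_or] at hv'
    exact ⟨(Function.update_of_ne hv'.1 _ _).trans (h.out v hv'.2).1,
      (Function.update_of_ne hv'.1 _ _).trans (h.out v hv'.2).2⟩
  · intro v
    by_cases e : v = r
    · subst e; exact .inl (Function.update_self _ _ _)
    · show Function.update H.w r 1 v = 1 ∨ Function.update H.w r 1 v = 0 ∨ Function.update H.w r 1 v = -1
      rw [Function.update_of_ne e]; exact h.wr v
  · intro v
    show v ∈ H.G.slot ↔ v ∈ insert r H.G.V ∧ Function.update H.w r 1 v = 0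
    by_cases e : v = r
    · subst e
      simp only [Function.update_self, one_ne_zero, and_false, iff_false]
      exact fun hc => hr (h.slotV hc)
    · rw [Function.update_of_ne e, h.sl, mem_insert]; simp [e]
  · intro X hX
    show (((H.G.node r Q false).fuel X : ℕ) : ℤ) = Q * ∑ v ∈ X, Function.update H.w r 1 v
    rw [fuel_node _ _ _ _ _ (h.out r hr).2, sum_upd _ _ _ _ (h.out r hr).1, Nat.cast_add, h.fuel X hX]
    split_ifs <;> push_cast <;> ring
  · intro e he hF hm'
    have h1 := h.ends e he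
    have h2 : e.2.1 ∈ H.O := (mem_insert.1 hm').resolve_left fun e' => hr (e' ▸ h1.2)
    rcases h.oc e he hF h2 with h3 | h3
    · exact .inl h3
    · exact .inr ⟨mem_insert_of_mem h3.1, (hnd _ h1.1).trans (h3.2.trans (hnd _ h1.2).symm)⟩
  · exact fun y hy => (hw y (h.IV hy)).trans (h.wI y hy)
  · intro q hq
    rw [P_root p hO] at hq
    exact (h.newNode hr hp hw (Function.update_self _ _ _) ∅ q).1 hq
  · exact fun X q hX => (h.newNode hr hp hw (Function.update_self _ _ _) X q).2 hX
  · exact fun y hy => h.cre y (hm y hy)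
  · exact fun y z hy hz => h.inj y z (hm y hy) (hm z hz)
  · show H.G.arcs.length + H.fr.card ≤ 2 * (insert r H.G.V).card
    rw [card_insert_of_notMem hr]; have := h.cnt; omega
  · show ∑ v ∈ insert r H.G.V, Function.update H.w r 1 v = ((R + 1 : ℕ) : ℤ)
    rw [sum_insert hr, Function.update_self, sum_congr rfl hw, h.tot]; push_cast; ring

theorem C_slot {s a : ℕ} (hs : s ∉ H.O) (q : ℕ) :
    (H.slot F s a).C q = if q = H.nd a then insert s (H.C q) else H.C q := by
  ext v
  show v ∈ (insert s H.O).filter (fun x => Function.update H.nd s (H.nd a) x = q) ↔ _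
  by_cases hv : v = s
  · subst hv
    by_cases hq : q = H.nd a
    · simp [hq]
    · simp [hq, hs, Ne.symm hq, mem_C]
  · by_cases hq : q = H.nd a
    · simp [hv, hq, mem_C]
    · simp [hv, hq, mem_C]

theorem OK.slot (h : H.OK Q F γ R) {s a : ℕ} (hs : s ∉ H.G.V) (ha : a ∈ H.O) (hw : H.w a ≠ 0) :
    (H.slot F s a).OK Q F γ R := by
  have hJ : s ∉ H.J := fun hc => hs (h.JV hc)
  have hI : s ∉ H.I := fun hc => hs (h.IV hc)
  have hO : s ∉ H.O := fun hc => hs (h.OV hc)
  have hw0 := (h.out s hs).1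
  have has : a ≠ s := fun e => hO (e ▸ ha)
  have hnd : ∀ v ∈ H.G.V, Function.update H.nd s (H.nd a) v = H.nd v := upd_mem hs _ _
  have hsum : ∀ X : Finset ℕ, ∀ q, ∑ v ∈ X ∩ (H.slot F s a).C q, H.w v = ∑ v ∈ X ∩ H.C q, H.w v := by
    intro X q
    rw [C_slot hO]
    split_ifs
    · by_cases hx : s ∈ X
      · rw [inter_insert_of_mem hx, sum_insert_of_eq_zero_if_notMem fun _ => hw0]
      · rw [inter_insert_of_notMem hx]
    · rfl
  refine ⟨h.QF, ?_, h.dJI, ?_, ?_, ?_, ?_, h.wr, ?_, ?_, ?_, ?_, ?_, ?_, h.wI, ?_, ?_, ?_, h.inj,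
    ?_, ?_, ?_, ?_, Fuel_arc (Fuel_node h.fu _ _ _ (h.out s hs).2) _, ?_⟩
  · show insert s H.G.V = H.J ∪ H.I ∪ insert s H.O
    rw [h.V, union_insert]
  · exact disjoint_insert_right.2 ⟨hJ, h.dJO⟩
  · exact disjoint_insert_right.2 ⟨hI, h.dIO⟩
  · intro e he
    rcases List.mem_cons.1 he with rfl | he
    · exact ⟨mem_insert_of_mem (h.OV ha), mem_insert_self _ _⟩
    · exact ⟨mem_insert_of_mem (h.ends e he).1, mem_insert_of_mem (h.ends e he).2⟩
  · intro v hv
    have hv' : v ∉ insert s H.G.V := hv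
    rw [mem_insert, not_or] at hv'
    exact ⟨(h.out v hv'.2).1, (Function.update_of_ne hv'.1 _ _).trans (h.out v hv'.2).2⟩
  · intro v
    show v ∈ insert s H.G.slot ↔ v ∈ insert s H.G.V ∧ H.w v = 0
    rw [mem_insert, mem_insert, h.sl]
    by_cases e : v = s
    · simp [e, hw0]
    · simp [e]
  · exact h.scn.trans (subset_insert _ _)
  · intro X hX
    show ((((H.G.node s 0 true).arc (a, s, F)).fuel X : ℕ) : ℤ) = Q * ∑ v ∈ X, H.w v
    rw [fuel_arc, if_neg fun hc => hc.1 (Cls.head hX hc.2), fuel_node _ _ _ _ _ (h.out s hs).2,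
      ite_self, ← h.fuel X (Cls.of_arc hX)]
    rfl
  · intro e he hF hm
    rcases List.mem_cons.1 he with rfl | he
    · exact absurd hm hJ
    · exact h.jc e he hF hm
  · intro e he hF hm
    rcases List.mem_cons.1 he with rfl | he
    · exact .inr ⟨mem_insert_of_mem ha, (hnd a (h.OV ha)).trans
        (Function.update_self s (H.nd a) H.nd).symm⟩
    · have h1 := h.ends e he
      have h2 : e.2.1 ∈ H.O := (mem_insert.1 hm).resolve_left fun e' => hs (e' ▸ h1.2)
      rcases h.oc e he hF h2 with h3 | h3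
      · exact .inl h3
      · exact .inr ⟨mem_insert_of_mem h3.1, (hnd _ h1.1).trans (h3.2.trans (hnd _ h1.2).symm)⟩
  · intro e he hF hm
    rcases List.mem_cons.1 he with rfl | he
    · exact absurd hm hI
    · exact h.ic e he hF hm
  · intro q hq
    rw [P_slot hO ha] at hq
    have := hsum (insert s H.O) q
    rw [inter_eq_right.2 (show (H.slot F s a).C q ⊆ insert s H.O from filter_subset _ _),
      inter_eq_right.2 (show H.C q ⊆ insert s H.O from
        (filter_subset _ _).trans (subset_insert _ _)), h.wC q hq] at this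
    exact this
  · intro X q hX hne
    refine (h.pos X q (Cls.of_arc hX) ?_).trans (hsum X q).symm.le
    obtain ⟨v, hv⟩ := hne
    rw [C_slot hO] at hv
    split_ifs at hv with hq
    · rcases mem_insert.1 (mem_inter.1 hv).2 with rfl | h1
      · exact ⟨a, mem_inter.2 ⟨Cls.head hX (mem_inter.1 hv).1, mem_C.2 ⟨ha, hq.symm⟩⟩⟩
      · exact ⟨v, mem_inter.2 ⟨(mem_inter.1 hv).1, h1⟩⟩
    · exact ⟨v, hv⟩
  · exact fun y hy => ⟨List.mem_cons_of_mem _ (h.cre y hy).1, (h.cre y hy).2⟩
  · exact insert_subset_insert _ h.frs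
  · intro t ht e he
    rcases List.mem_cons.1 he with rfl | he
    · rcases mem_insert.1 ht with rfl | ht
      · exact has
      · exact fun e' => hw (((h.sl t).1 (h.frs ht)).2 ▸ congrArg H.w e')
    · rcases mem_insert.1 ht with rfl | ht
      · exact fun e' => hs (e' ▸ (h.ends e he).1)
      · exact h.fro t ht e he
  · intro t ht hn
    rcases mem_insert.1 (show t ∈ insert s H.G.slot from ht) with rfl | ht
    · exact mem_insert_self _ _
    · exact mem_insert_of_mem (h.fru t ht hn)
  · show H.G.arcs.length + 1 + (insert s H.fr).card ≤ 2 * (insert s H.G.V).card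
    rw [card_insert_of_notMem hs]
    have := h.cnt
    have := card_insert_le s H.fr
    omega
  · show ∑ v ∈ insert s H.G.V, H.w v = R
    rw [sum_insert hs, hw0, zero_add, h.tot]

theorem OK.scan (h : H.OK Q F γ R) {s : ℕ} (hs : s ∈ H.G.slot) (hf : (H.G.scan s).Fuel γ 1) :
    (H.scan s).OK Q F γ R :=
  ⟨h.QF, h.V, h.dJI, h.dJO, h.dIO, h.ends, h.out, h.wr, h.sl, insert_subset hs h.scn, h.fuel, h.jc,
    h.oc, h.ic, h.wI, h.wC, h.pos, fun y hy => ⟨(h.cre y hy).1, mem_insert_of_mem (h.cre y hy).2⟩,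
    h.inj, h.frs, h.fro, fun t ht hn => h.fru t ht fun hc => hn (mem_insert_of_mem hc), h.cnt, hf,
    h.tot⟩

theorem OK.arc (h : H.OK Q F γ R) {s y : ℕ} (hs : s ∈ H.O) (hf : s ∈ H.fr) (hn : s ∈ H.G.scn)
    (hy : y ∈ H.I) : (H.arc F s y).OK Q F γ R := by
  refine ⟨h.QF, h.V, h.dJI, h.dJO, h.dIO, ?_, h.out, h.wr, h.sl, h.scn, ?_, ?_, ?_, ?_, h.wI, h.wC,
    fun X q hX => h.pos X q (Cls.of_arc hX), ?_, h.inj, (erase_subset _ _).trans h.frs, ?_, ?_, ?_,
    Fuel_arc h.fu _, h.tot⟩
  · intro e he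
    rcases List.mem_cons.1 he with rfl | he
    · exact ⟨h.OV hs, h.IV hy⟩
    · exact h.ends e he
  · intro X hX
    show (((H.G.arc (s, y, F)).fuel X : ℕ) : ℤ) = Q * ∑ v ∈ X, H.w v
    rw [fuel_arc, if_neg fun hc => hc.1 (Cls.head hX hc.2), ← h.fuel X (Cls.of_arc hX)]
    rfl
  · intro e he hF hm
    rcases List.mem_cons.1 he with rfl | he
    · exact absurd hy (disjoint_left.1 h.dJI hm)
    · exact h.jc e he hF hm
  · intro e he hF hm
    rcases List.mem_cons.1 he with rfl | he
    · exact absurd hm (disjoint_left.1 h.dIO hy)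
    · exact h.oc e he hF hm
  · intro e he hF hm
    rcases List.mem_cons.1 he with rfl | he
    · exact disjoint_right.1 h.dIO hs
    · exact h.ic e he hF hm
  · exact fun z hz => ⟨List.mem_cons_of_mem _ (h.cre z hz).1, (h.cre z hz).2⟩
  · intro t ht e he
    rcases List.mem_cons.1 he with rfl | he
    · exact (mem_erase.1 ht).1.symm
    · exact h.fro t (mem_erase.1 ht).2 e he
  · exact fun t ht hn' => mem_erase.2 ⟨fun e => hn' (e ▸ hn), h.fru t ht hn'⟩
  · show H.G.arcs.length + 1 + (H.fr.erase s).card ≤ 2 * H.G.V.card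
    have := h.cnt
    have := card_erase_add_one hf
    omega

theorem OK.pair (h : H.OK Q F γ R) {s y m p : ℕ} (hs : s ∈ H.O) (hf : s ∈ H.fr)
    (hn : s ∈ H.G.scn) (hy : y ∉ H.G.V) (hm : m ∉ H.G.V) (hym : y ≠ m) (hp : p ∉ H.P) :
    (H.pair Q F s y m p).OK Q F γ R := by
  have hw : ∀ v ∈ H.G.V, Function.update (Function.update H.w y (-1)) m 1 v = H.w v := fun v hv =>
    (upd_mem hm _ _ v hv).trans (upd_mem hy _ _ v hv)
  have hwy : Function.update (Function.update H.w y (-1)) m 1 y = -1 := by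
    rw [Function.update_of_ne hym, Function.update_self]
  have hw' : ∀ v, v ≠ y → v ≠ m → Function.update (Function.update H.w y (-1)) m 1 v = H.w v :=
    fun v h1 h2 => by rw [Function.update_of_ne h2, Function.update_of_ne h1]
  have hneg : ∀ v, Function.update (Function.update H.w y (-1)) m 1 v = -1 → v ≠ y → H.w v = -1 := by
    intro v h1 h2
    by_cases e : v = m
    · subst e; simp at h1
    · rwa [hw' v h2 e] at h1
  have hnd : ∀ v ∈ H.G.V, Function.update H.nd m p v = H.nd v := upd_mem hm _ _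
  have hcl : ∀ X, Cls (H.pair Q F s y m p).G F X → Cls H.G F X := fun X hX =>
    Cls.of_arc (G := (H.G.node y 0 false).node m 0 false) (Cls.of_arc (Cls.of_arc hX))
  have harc : ∀ e ∈ (H.pair Q F s y m p).G.arcs,
      e = (s, y, F) ∨ e = (m, y, F) ∨ e = (y, m, Q) ∨ e ∈ H.G.arcs := fun e he => by
    simpa only [Hs.pair, OG.arc, OG.node, List.mem_cons] using he
  have hQ : Q ≠ F := h.QF.ne
  have hV : ∀ v ∈ H.G.V, v ∈ (H.pair Q F s y m p).G.V := fun v hv =>
    mem_insert_of_mem (mem_insert_of_mem hv)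
  have hyV : y ∈ (H.pair Q F s y m p).G.V := mem_insert_of_mem (mem_insert_self _ _)
  have hmV : m ∈ (H.pair Q F s y m p).G.V := mem_insert_self _ _
  have hs0 : (H.G.node y 0 false).sup m = 0 :=
    (Function.update_of_ne hym.symm _ _).trans (h.out m hm).2
  refine ⟨h.QF, ?_, ?_, ?_, ?_, ?_, ?_, ?_, ?_, h.scn, ?_, ?_, ?_, ?_, ?_, ?_, ?_, ?_, ?_,
    (erase_subset _ _).trans h.frs, ?_, ?_, ?_,
    Fuel_arc (Fuel_arc (Fuel_arc (Fuel_node (Fuel_node h.fu _ _ _ (h.out y hy).2) _ _ _ hs0) _) _) _,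
    ?_⟩
  · show insert m (insert y H.G.V) = H.J ∪ insert y H.I ∪ insert m H.O
    rw [h.V, union_insert, union_insert, insert_union]
  · exact disjoint_insert_right.2 ⟨fun hc => hy (h.JV hc), h.dJI⟩
  · exact disjoint_insert_right.2 ⟨fun hc => hm (h.JV hc), h.dJO⟩
  · refine disjoint_insert_right.2 ⟨fun hc => ?_, disjoint_insert_left.2 ⟨fun hc => hy (h.OV hc), h.dIO⟩⟩
    rcases mem_insert.1 hc with e | hc
    · exact hym e.symm
    · exact hm (h.IV hc)
  · intro e he
    rcases harc e he with rfl | rfl | rfl | he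
    · exact ⟨hV _ (h.OV hs), hyV⟩
    · exact ⟨hmV, hyV⟩
    · exact ⟨hyV, hmV⟩
    · exact ⟨hV _ (h.ends e he).1, hV _ (h.ends e he).2⟩
  · intro v hv
    have hv' : v ∉ insert m (insert y H.G.V) := hv
    rw [mem_insert, mem_insert, not_or, not_or] at hv'
    exact ⟨(hw' v hv'.2.1 hv'.1).trans (h.out v hv'.2.2).1, (Function.update_of_ne hv'.1 _ _).trans
      ((Function.update_of_ne hv'.2.1 _ _).trans (h.out v hv'.2.2).2)⟩
  · intro v
    by_cases e : v = m
    · subst e; exact .inl (Function.update_self _ _ _)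
    · by_cases e' : v = y
      · subst e'; exact .inr (.inr hwy)
      · have := h.wr v
        rw [← hw' v e' e] at this
        exact this
  · intro v
    show v ∈ H.G.slot ↔ v ∈ insert m (insert y H.G.V) ∧
      Function.update (Function.update H.w y (-1)) m 1 v = 0
    by_cases e : v = m
    · subst e
      simp only [Function.update_self, one_ne_zero, and_false, iff_false]
      exact fun hc => hm (h.slotV hc)
    · by_cases e' : v = y
      · subst e'
        rw [hwy]
        simp only [neg_eq_zero, one_ne_zero, and_false, iff_false]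
        exact fun hc => hy (h.slotV hc)
      · rw [hw' v e' e, h.sl, mem_insert, mem_insert]; simp [e, e']
  · intro X hX
    show ((((((H.G.node y 0 false).node m 0 false).arc (y, m, Q)).arc (m, y, F)).arc (s, y, F)).fuel X
      : ℕ) = (Q : ℤ) * ∑ v ∈ X, Function.update (Function.update H.w y (-1)) m 1 v
    have h1 : y ∈ X → m ∈ X := Cls.head (Cls.of_arc hX)
    rw [fuel_arc, if_neg fun hc => hc.1 (Cls.head hX hc.2), fuel_arc, if_neg fun hc => hc.1 (h1 hc.2),
      fuel_arc, fuel_node _ _ _ _ _ hs0, fuel_node _ _ _ _ _ (h.out y hy).2, ite_self, ite_self,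
      sum_upd _ _ _ _ ((Function.update_of_ne hym.symm _ _).trans (h.out m hm).1),
      sum_upd _ _ _ _ (h.out y hy).1]
    have h2 := h.fuel X (hcl X hX)
    by_cases a : y ∈ X <;> by_cases b : m ∈ X
    · simp only [a, b, not_true, false_and, if_true, if_false]; push_cast; linarith
    · exact absurd (h1 a) b
    · simp only [a, b, not_false_iff, true_and, if_true, if_false]; push_cast; linarith
    · simp only [a, b, and_false, if_false]; push_cast; linarith
  · intro e he hF hv
    rcases harc e he with rfl | rfl | rfl | he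
    · exact absurd (h.JV hv) hy
    · exact absurd (h.JV hv) hy
    · exact absurd hF hQ
    · exact h.jc e he hF hv
  · intro e he hF hv
    have hyO : y ∉ insert m H.O := fun hc => (mem_insert.1 hc).elim hym fun hc => hy (h.OV hc)
    rcases harc e he with rfl | rfl | rfl | he
    · exact absurd hv hyO
    · exact absurd hv hyO
    · exact absurd hF hQ
    · have h1 := h.ends e he
      have h2 : e.2.1 ∈ H.O := (mem_insert.1 hv).resolve_left fun e' => hm (e' ▸ h1.2)
      rcases h.oc e he hF h2 with h3 | h3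
      · exact .inl h3
      · exact .inr ⟨mem_insert_of_mem h3.1, (hnd _ h1.1).trans (h3.2.trans (hnd _ h1.2).symm)⟩
  · intro e he hF hv hc
    rcases harc e he with rfl | rfl | rfl | he
    · rcases mem_insert.1 hc with e' | hc
      · exact hy (e' ▸ h.OV hs)
      · exact disjoint_left.1 h.dIO hc hs
    · rcases mem_insert.1 hc with e' | hc
      · exact hym e'.symm
      · exact hm (h.IV hc)
    · exact hQ hF
    · have h1 := h.ends e he
      exact h.ic e he hF ((mem_insert.1 hv).resolve_left fun e' => hy (e' ▸ h1.2))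
        ((mem_insert.1 hc).resolve_left fun e' => hy (e' ▸ h1.1))
  · intro z hz
    rcases mem_insert.1 hz with rfl | hz
    · exact hwy
    · exact (hw z (h.IV hz)).trans (h.wI z hz)
  · intro q hq
    rw [P_pair s y p fun hc => hm (h.OV hc)] at hq
    exact (h.newNode hm hp hw (Function.update_self _ _ _) ∅ q).1 hq
  · exact fun X q hX => (h.newNode hm hp hw (Function.update_self _ _ _) X q).2 (hcl X hX)
  · intro z hz
    show (Function.update H.cs y s z, z, F) ∈ (s, y, F) :: (m, y, F) :: (y, m, Q) :: H.G.arcs ∧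
      Function.update H.cs y s z ∈ H.G.scn
    by_cases e : z = y
    · subst e; rw [Function.update_self]; exact ⟨List.mem_cons_self, hn⟩
    · rw [Function.update_of_ne e]
      have := h.cre z (hneg z hz e)
      exact ⟨by simp [this.1], this.2⟩
  · intro z z' hz hz' he
    have he' : Function.update H.cs y s z = Function.update H.cs y s z' := he
    by_cases e : z = y <;> by_cases e' : z' = y
    · rw [e, e']
    · rw [e, Function.update_self, Function.update_of_ne e'] at he'
      exact absurd he'.symm (h.fro s hf _ (h.cre z' (hneg z' hz' e')).1)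
    · rw [e', Function.update_self, Function.update_of_ne e] at he'
      exact absurd he' (h.fro s hf _ (h.cre z (hneg z hz e)).1)
    · rw [Function.update_of_ne e, Function.update_of_ne e'] at he'
      exact h.inj z z' (hneg z hz e) (hneg z' hz' e') he'
  · intro t ht e he
    have ht' := mem_erase.1 ht
    rcases harc e he with rfl | rfl | rfl | he
    · exact ht'.1.symm
    · exact fun e' : m = t => hm (e' ▸ h.slotV (h.frs ht'.2))
    · exact fun e' : y = t => hy (e' ▸ h.slotV (h.frs ht'.2))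
    · exact h.fro t ht'.2 e he
  · exact fun t ht hn' => mem_erase.2 ⟨fun e => hn' (e ▸ hn), h.fru t ht hn'⟩
  · show H.G.arcs.length + 1 + 1 + 1 + (H.fr.erase s).card ≤ 2 * (insert m (insert y H.G.V)).card
    rw [card_insert_of_notMem fun hc => (mem_insert.1 hc).elim (fun e => hym e.symm) hm,
      card_insert_of_notMem hy]
    have := h.cnt
    have := card_erase_add_one hf
    omega
  · show ∑ v ∈ insert m (insert y H.G.V), Function.update (Function.update H.w y (-1)) m 1 v = R
    rw [sum_insert fun hc => (mem_insert.1 hc).elim (fun e => hym e.symm) hm, sum_insert hy, hwy,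
      Function.update_self, sum_congr rfl hw, h.tot]
    ring

end Hs

end Vale.Agent.P305GH
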